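import Crest.Agent.X261.Fam.Defs

/-!
# Row 261, package FAM (helper60), part Nat: naturality of fibrewise minimal forms

* `gen` : transport of `IsMin` along a deck transformation, an affine change of `a`, a map of
  subgroups and a bounded affine intertwiner;
* `nat`, `natC`, `map`, `res`, `smul`, `neg`, `add`, `sub`, `sum`, `cob`, `zero`, `shift`, `congrS`;
* with uniqueness (`Uq`): `fixT`, `fix`, `fixN`, `eq_zero`.
-/

set_option autoImplicit false
set_option linter.unusedSectionVars false

open Set Filter Topology MeasureTheory Matrix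
open scoped ComplexConjugate ComplexOrder InnerProductSpace ContDiff

namespace Crest.Agent.X261.Fam60

open Crest.Agent.R275.Geo hiding rd
open Crest.Agent.R273.UCov_914 Crest.Agent.R273.Kah_333
open Crest.Agent.R275.EDR890
open Crest.Agent.R273.Fock_243 Crest.Agent.R273.GamR_155
open Crest.Agent.X261.Top (HolV)
open Crest.Agent.X261.Rel.Act (Rep Act)
open Crest.Agent.X261.Fam

noncomputable section

variable {n q : ℕ} {X : Type} [TopologicalSpace X] {A : Atl n X} {G : Type} [Group G]
variable {H : Type*} [NormedAddCommGroup H] [InnerProductSpace ℂ H]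
variable {H' : Type*} [NormedAddCommGroup H'] [InnerProductSpace ℂ H']

/-! ### continuity -/

theorem cont_GamR : Continuous (GamR : Mr n q → Matrix (FI n) (FI q) ℂ) := by
  refine continuous_pi fun S => continuous_pi fun T => ?_
  unfold GamR
  split_ifs
  · exact (continuous_id.matrix_submatrix _ _).matrix_det
  · exact continuous_const

theorem cont_Gam : Continuous (Gam : Mt n → Matrix (FI n) (FI n) ℂ) := by
  refine continuous_pi fun S => continuous_pi fun T => ?_
  unfold Gam
  split_ifs
  · exact (continuous_id.matrix_submatrix _ _).matrix_det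
  · exact continuous_const

theorem cont_vI : Continuous (vI : Mr n q → Matrix (FI n) (Fin n) ℂ) := by
  refine continuous_pi fun I => continuous_pi fun b => ?_
  have h1 : Continuous (tau : Mr n q → FI n → ℂ) := cont_GamR.matrix_mulVec continuous_const
  exact (continuous_apply I).comp (continuous_const.matrix_mulVec h1)

section flat

variable {U : Set (Cn n)} {a a' : Cn n → Cn q} {F F' : Cn n → H} {z : Cn n}

theorem diff_co (hU : IsOpen U) (ha : DifferentiableOn ℂ a U) (hz : z ∈ U) (k : Fin q) :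
    ContDiffAt ℝ ∞ (fun w => a w k) z :=
  ((EuclideanSpace.proj k : Cn q →L[ℂ] ℂ).restrictScalars ℝ).contDiff.contDiffAt.comp z
    (R273.FS_333.contDiffAt_of_hol hU ha hz)

theorem contOn_Cf (hU : IsOpen U) (ha : DifferentiableOn ℂ a U) : ContinuousOn (Cf a) U :=
  continuousOn_pi.2 fun b => continuousOn_pi.2 fun k _ hz =>
    (contDiffAt_wd (diff_co hU ha hz k) (false, b)).continuousAt.continuousWithinAt

theorem contOn_Sl (hU : IsOpen U) (ha : DifferentiableOn ℂ a U) (hF : ContDiffOn ℝ ∞ F U)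
    (I : FI n) : ContinuousOn (fun z => Sl a F z I) U := by
  have h1 : ContinuousOn (fun z => vI (Cf a z)) U := cont_vI.comp_continuousOn (contOn_Cf hU ha)
  simp only [Sl, ac, th]
  exact continuousOn_finsetSum _ fun b _ => (continuousOn_pi.1 (continuousOn_pi.1 h1 I) b).smul
    (contDiffOn_wd hU hF (false, b)).continuousOn

theorem contOn_p2 {g : Cn n → Mt n} (hg : ContinuousOn g U) (h0 : ∀ z ∈ U, (g z).det ≠ 0)
    {S S' : Cn n → FI n → H} (hS : ∀ I, ContinuousOn (fun z => S z I) U)
    (hS' : ∀ I, ContinuousOn (fun z => S' z I) U) :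
    ContinuousOn (fun z => p2 (g z) (S z) (S' z)) U := by
  have h1 : ContinuousOn (fun z => (g z).det) U :=
    (continuous_id.matrix_det).comp_continuousOn hg
  have h2 : ContinuousOn (fun z => (g z)⁻¹) U := by
    refine ContinuousOn.congr (f := fun z => ((g z).det)⁻¹ • (g z).adjugate) ?_ fun z _ => ?_
    · exact (h1.inv₀ h0).smul ((continuous_id.matrix_adjugate).comp_continuousOn hg)
    · simp only [Matrix.inv_def, Ring.inverse_eq_inv']
  have h3 := cont_Gam.comp_continuousOn h2
  refine h1.mul ?_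
  simp only [ip_eq]
  refine continuousOn_finsetSum _ fun r _ => continuousOn_finsetSum _ fun p _ => ?_
  exact (continuousOn_pi.1 (continuousOn_pi.1 h3 r) p).mul
    (ContinuousOn.inner (𝕜 := ℂ) (hS r) (hS' p))

theorem th_off {u : Cn n → H} (hz : z ∉ tsupport u) : th u z = 0 := by
  funext b
  have h : u =ᶠ[𝓝 z] fun _ => 0 := notMem_tsupport_iff_eventuallyEq.1 hz
  exact (wd_congr h _).trans (wd_const _ _ _)

theorem ac_zero {ι κ : Type*} [Fintype κ] (N : Matrix ι κ ℂ) : ac N (0 : κ → H) = 0 := by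
  funext k
  simp [ac]

theorem Sl_off {u : Cn n → H} (hz : z ∉ tsupport u) : Sl a u z = 0 := by
  rw [Sl, th_off hz, ac_zero]

theorem p2_zero_left (g : Mt n) (S : FI n → H) : p2 g 0 S = 0 := by
  simp [p2, ip, dt]

theorem p2_zero_right (g : Mt n) (S : FI n → H) : p2 g S 0 = 0 := by
  simp [p2, ip, dt, ac_zero]

theorem Sl_const (c : H) : Sl a (fun _ => c) z = 0 := by
  have : th (fun _ : Cn n => c) z = 0 := funext fun b => wd_const _ _ _
  rw [Sl, this, ac_zero]

theorem Sl_add (hF : DifferentiableAt ℝ F z) (hF' : DifferentiableAt ℝ F' z) :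
    Sl a (fun w => F w + F' w) z = Sl a F z + Sl a F' z := by
  have : th (fun w => F w + F' w) z = th F z + th F' z := funext fun b => wd_add hF hF' _
  rw [Sl, this, ac_add]
  rfl

theorem Sl_clm (hF : DifferentiableAt ℝ F z) (T : H →L[ℂ] H') (I : FI n) :
    Sl a (fun w => T (F w)) z I = T (Sl a F z I) := by
  simp only [Sl, ac, th, map_sum, map_smul, wd_clm hF T]

theorem Sl_aff (hF : DifferentiableAt ℝ F z) (T : H →L[ℂ] H') (c : H') (I : FI n) :
    Sl a (fun w => T (F w) + c) z I = T (Sl a F z I) := by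
  have h1 : DifferentiableAt ℝ (fun w => T (F w)) z :=
    (T.restrictScalars ℝ).differentiableAt.comp z hF
  rw [Sl_add h1 (differentiableAt_const c), Sl_const, add_zero, Sl_clm hF]

theorem Cf_aff (hU : IsOpen U) (ha' : DifferentiableOn ℂ a' U) (hz : z ∈ U) {L : Mt q} {l : Cn q}
    (h : ∀ w k, a w k = ∑ k', L k k' * a' w k' + l k) : Cf a z = Cf a' z * Lᵀ := by
  ext b k
  have hd : ∀ k, DifferentiableAt ℝ (fun w => a' w k) z := fun k =>
    (diff_co hU ha' hz k).differentiableAt (by simp)
  have hd' : ∀ k', DifferentiableAt ℝ (fun w => L k k' * a' w k') z := fun k' =>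
    (hd k').const_mul _
  simp only [Cf, Matrix.of_apply, Matrix.mul_apply, Matrix.transpose_apply, h]
  rw [wd_add (DifferentiableAt.fun_sum fun k' _ => hd' k') (differentiableAt_const _), wd_const,
    add_zero, wd_sum _ fun k' _ => hd' k']
  refine Finset.sum_congr rfl fun k' _ => ?_
  rw [mul_comm]
  exact wd_const_smul (L k k') (hd k') _

theorem Sl_lin (hU : IsOpen U) (ha' : DifferentiableOn ℂ a' U) (hz : z ∈ U) {L : Mt q} {l : Cn q}
    (h : ∀ w k, a w k = ∑ k', L k k' * a' w k' + l k) : Sl a F z = L.det • Sl a' F z := by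
  rw [Sl, Cf_aff hU ha' hz h, vI_mul_right, Matrix.det_transpose, smul_ac]
  rfl

theorem tend_le {K : Set (Cn n)} (hK : IsCompact K) {u : ℕ → Cn n → H} {w : ℕ → Cn n → ℝ}
    (hw : ∀ k, ContinuousOn (w k) K) (h : ∀ k, ∀ z ∈ K, ‖u k z‖ ^ 2 ≤ w k z)
    (ht : Tendsto (fun k => ∫ z in K, w k z) atTop (𝓝 0)) :
    Tendsto (fun k => ∫ z in K, ‖u k z‖ ^ 2) atTop (𝓝 0) := by
  refine squeeze_zero (fun k => integral_nonneg fun _ => by positivity) (fun k => ?_) ht
  refine integral_mono_of_nonneg (Eventually.of_forall fun _ => by positivity)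
    ((hw k).integrableOn_compact hK) ?_
  exact (ae_restrict_mem hK.measurableSet).mono (h k)

theorem p2_adj [CompleteSpace H] [CompleteSpace H'] (g : Mt n) (T : H →L[ℂ] H') (c : ℂ)
    (B : FI n → H') (S : FI n → H) :
    p2 g (c • B) (fun I => c • T (S I)) =
      ((‖c‖ ^ 2 : ℝ) : ℂ) * p2 g (fun I => ContinuousLinearMap.adjoint T (B I)) S := by
  have h1 : (fun I => c • T (S I)) = c • fun I => T (S I) := rfl
  rw [h1, p2, p2, ip_smul_left, ip_smul_right]
  simp only [ip_eq, ContinuousLinearMap.adjoint_inner_left]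
  rw [← Complex.normSq_eq_norm_sq, Complex.normSq_eq_conj_mul_self]
  ring

end flat

/-! ### readings -/

variable {D : MonD A G} {K : Kah A} {M M' : Subgroup G} {a a' : D.cov G → Cn q}
variable {r : Rep M H} {b b' : M → H} {S S' : A.ι → G → X → FI n → H}

theorem hol_rd (ha : HolV (D.atl G) univ a) (i : A.ι) (v : G) :
    DifferentiableOn ℂ (rd D a i v) (A.e i).target := by
  have := ha (i, v)
  rwa [preimage_univ, inter_univ] at this

theorem sm_rd {f : D.cov G → H} (hf : (D.atl G).Sm f) (i : A.ι) (v : G) :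
    ContDiffOn ℝ ∞ (rd D f i v) (A.e i).target := hf (i, v)

theorem diff_rd {f : D.cov G → H} (hf : (D.atl G).Sm f) (i : A.ι) (v : G) {z : Cn n}
    (hz : z ∈ (A.e i).target) : DifferentiableAt ℝ (rd D f i v) z :=
  ((sm_rd hf i v).contDiffAt ((A.e i).open_target.mem_nhds hz)).differentiableAt (by simp)

theorem rd_deck {W : Type*} (f : D.cov G → W) (g : G) (i : A.ι) (v : G) :
    rd D (fun e => f (g • e)) i v = rd D f i (v * g⁻¹) := by
  funext z
  simp only [rd, D.deck_pt]

theorem contOn_g (K : Kah A) (i : A.ι) :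
    ContinuousOn (fun z => K.g i ((A.e i).symm z)) (A.e i).target :=
  continuousOn_pi.2 fun c => continuousOn_pi.2 fun d => (K.sm i c d).continuousOn

theorem det_g (K : Kah A) (i : A.ι) {z : Cn n} (hz : z ∈ (A.e i).target) :
    (K.g i ((A.e i).symm z)).det ≠ 0 := (K.pos i _ ((A.e i).map_target hz)).det_pos.ne'

/-- integrability of the pairing with a test map -/
theorem int_test (ha : HolV (D.atl G) univ a) (K : Kah A) (i : A.ι) (v : G) {u : Cn n → H}
    (hu : ContDiff ℝ ∞ u) (hc : HasCompactSupport u) (hs : tsupport u ⊆ (A.e i).target)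
    {P : Cn n → FI n → H} (hP : ∀ I, ContinuousOn (fun z => P z I) (A.e i).target) :
    Integrable fun z => (p2 (K.g i ((A.e i).symm z)) (Sl (rd D a i v) u z) (P z)).re := by
  have h1 := contOn_p2 (contOn_g K i) (fun _ hz => det_g K i hz)
    (contOn_Sl (A.e i).open_target (hol_rd ha i v) hu.contDiffOn) hP
  have h2 := ((Complex.continuous_re.comp_continuousOn h1).mono hs).integrableOn_compact
    (μ := volume) hc
  refine (integrableOn_iff_integrable_of_support_subset fun z hz => ?_).1 h2
  by_contra hz'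
  exact hz (by simp only [Sl_off hz', p2_zero_left, Complex.zero_re])

/-- only the values on the chart domains matter -/
theorem congrS (h : IsMin D K M a r b S) (hS : ∀ i v, ∀ x ∈ (A.e i).source, S' i v x = S i v x) :
    IsMin D K M a r b S' := by
  have hS' : ∀ i v, ∀ z ∈ (A.e i).target, S' i v ((A.e i).symm z) = S i v ((A.e i).symm z) :=
    fun i v z hz => hS i v _ ((A.e i).map_target hz)
  obtain ⟨f, hf, hl⟩ := h.lim
  refine ⟨fun i v I => (h.hol i v I).congr fun z hz => by rw [hS' i v z hz],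
    ⟨f, hf, fun i v Kc hK hc I => (hl i v Kc hK hc I).congr fun k => ?_⟩,
    fun i v u hu hc hs hJ => ?_⟩
  · exact setIntegral_congr_fun hc.measurableSet fun z hz => by
      simp only [hS' i v z (hK hz)]
  · rw [← h.orth i v u hu hc hs hJ]
    congr 1
    funext z
    by_cases hz : z ∈ tsupport u
    · rw [hS' i v z (hs hz)]
    · rw [Sl_off hz, p2_zero_left, p2_zero_left]

theorem adj_J [CompleteSpace H] [CompleteSpace H'] {N N' : Type*} [Group N] [Group N']
    (r : Rep N H) (r' : Rep N' H') (T : H →L[ℂ] H') (hT : ∀ x, T (r.J x) = r'.J (T x)) (y : H') :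
    r.J (ContinuousLinearMap.adjoint T y) = ContinuousLinearMap.adjoint T (r'.J y) := by
  refine ext_inner_right ℂ fun x => ?_
  rw [ContinuousLinearMap.adjoint_inner_left]
  conv_lhs => rw [← r.JJ x, r.inner_J, ContinuousLinearMap.adjoint_inner_right, hT]
  conv_rhs => rw [← r'.JJ (T x), r'.inner_J]

/-- **naturality**, general form -/
theorem gen [CompleteSpace H] [CompleteSpace H'] {r' : Rep M' H'} {b' : M' → H'}
    (h : IsMin D K M a r b S) (ha' : HolV (D.atl G) univ a') (g : G) {L : Mt q} (hL : L.det ≠ 0)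
    {l : Cn q} (haL : ∀ e k, a (g • e) k = ∑ k', L k k' * a' e k' + l k)
    (φ : M' → M) (hφ : ∀ m, (φ m : G) = g * m * g⁻¹)
    (T : H →L[ℂ] H') (hT : ∀ x, T (r.J x) = r'.J (T x)) (c : H') (hc : r'.J c = c)
    (hb : ∀ m x, r.J x = x → T (r.π (φ m) x + b (φ m)) + c = r'.π m (T x + c) + b' m) :
    IsMin D K M' a' r' b' fun i v x I => (L.det)⁻¹ • T (S i (v * g⁻¹) x I) := by
  have hrd : ∀ i v w k, rd D a i (v * g⁻¹) w k = ∑ k', L k k' * rd D a' i v w k' + l k := by
    intro i v w k
    rw [← rd_deck]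
    exact haL _ k
  obtain ⟨f, hf, hl⟩ := h.lim
  refine ⟨fun i v I => ?_, ⟨fun k e => T (f k (g • e)) + c, fun k => ⟨fun p => ?_, fun e => ?_,
    fun m e => ?_⟩, fun i v Kc hK hc I => ?_⟩, fun i v u hu hc hs hJ => ?_⟩
  · exact (T.differentiable.comp_differentiableOn (h.hol i (v * g⁻¹) I)).const_smul _
  · have h1 := sm_rd (hf k).sm p.1 (p.2 * g⁻¹)
    rw [← rd_deck] at h1
    exact ((T.restrictScalars ℝ).contDiff.comp_contDiffOn h1).add contDiffOn_const
  · rw [map_add, hc, ← hT, (hf k).real]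
  · beta_reduce
    rw [← hb m _ ((hf k).real _), ← (hf k).eqv, hφ, smul_smul, smul_smul, inv_mul_cancel_right]
  · have h0 := (hl i (v * g⁻¹) Kc hK hc I).const_mul ((‖(L.det)⁻¹‖ * ‖T‖) ^ 2)
    rw [mul_zero] at h0
    simp only [← integral_const_mul] at h0
    refine tend_le hc (fun k => continuousOn_const.mul ((ContinuousOn.norm (.sub ?_
      ((h.hol i _ I).continuousOn.mono hK))).pow 2)) (fun k z hz => ?_) h0
    · refine (((contOn_Sl (A.e i).open_target (hol_rd ha' i v) (sm_rd (hf k).sm i (v * g⁻¹))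
        I).const_smul L.det).mono hK).congr fun z hz => ?_
      rw [Sl_lin (A.e i).open_target (hol_rd ha' i v) (hK hz) (hrd i v)]
      rfl
    · have h1 : rd D (fun e => T (f k (g • e)) + c) i v =
          fun w => T (rd D (f k) i (v * g⁻¹) w) + c := by
        rw [← rd_deck]; rfl
      have h2 : Sl (rd D a' i v) (rd D (f k) i (v * g⁻¹)) z I =
          (L.det)⁻¹ • Sl (rd D a i (v * g⁻¹)) (rd D (f k) i (v * g⁻¹)) z I := by
        rw [Sl_lin (A.e i).open_target (hol_rd ha' i v) (hK hz) (hrd i v), Pi.smul_apply,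
          inv_smul_smul₀ hL]
      simp only [Pi.mul_apply, Pi.pow_apply, Pi.sub_apply]
      rw [h1, Sl_aff (diff_rd (hf k).sm i _ (hK hz)), h2, map_smul, ← smul_sub, ← map_sub,
        ← mul_pow, norm_smul, mul_assoc]
      gcongr
      exact T.le_opNorm _
  · set T' := ContinuousLinearMap.adjoint T with hT'
    have hs' : tsupport (fun z => T' (u z)) ⊆ tsupport u :=
      closure_mono (Function.support_comp_subset (map_zero T') u)
    have h0 := h.orth i (v * g⁻¹) (fun z => T' (u z)) ((T'.restrictScalars ℝ).contDiff.comp hu)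
      (hc.comp_left (map_zero T')) (hs'.trans hs) fun z => by rw [hT', adj_J r r' T hT, hJ]
    have h1 := congrArg (fun t => ‖(L.det)⁻¹‖ ^ 2 * t) h0
    simp only [mul_zero, ← integral_const_mul] at h1
    rw [← h1]
    congr 1
    funext z
    by_cases hz : z ∈ tsupport u
    · have h2 : Sl (rd D a' i v) u z = (L.det)⁻¹ • Sl (rd D a i (v * g⁻¹)) u z := by
        rw [Sl_lin (A.e i).open_target (hol_rd ha' i v) (hs hz) (hrd i v), inv_smul_smul₀ hL]
      have h3 : Sl (rd D a i (v * g⁻¹)) (fun z => T' (u z)) z =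
          fun I => T' (Sl (rd D a i (v * g⁻¹)) u z I) :=
        funext fun I => Sl_clm (hu.differentiable (by simp) z) T' I
      rw [h2, p2_adj, Complex.re_ofReal_mul, h3]
    · rw [Sl_off hz, Sl_off fun h' => hz (hs' h'), p2_zero_left, p2_zero_left, Complex.zero_re,
        mul_zero]

theorem aff_one (a : D.cov G → Cn q) (e : D.cov G) (k : Fin q) :
    a ((1 : G) • e) k = ∑ k', (1 : Mt q) k k' * a e k' + (0 : Cn q) k := by
  simp [Matrix.one_apply]

theorem aff_tr {g : G} {l : Cn q} (h : ∀ e, a (g • e) = a' e + l) (e : D.cov G) (k : Fin q) :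
    a (g • e) k = ∑ k', (1 : Mt q) k k' * a' e k' + l k := by
  simp [h, Matrix.one_apply]

theorem aff_clm {g : G} {L : Cn q →L[ℂ] Cn q} {l : Cn q} (h : ∀ e, a (g • e) = L (a' e) + l)
    (e : D.cov G) (k : Fin q) : a (g • e) k =
      ∑ k', (Matrix.toEuclideanCLM (𝕜 := ℂ)).symm L k k' * a' e k' + l k := by
  rw [← mL_apply, mL, StarAlgEquiv.apply_symm_apply, h]
  rfl

theorem det_clm (L : Cn q →L[ℂ] Cn q) :
    ((Matrix.toEuclideanCLM (𝕜 := ℂ)).symm L : Mt q).det = L.det := by
  obtain ⟨N, rfl⟩ : ∃ N : Mt q, Matrix.toEuclideanCLM (𝕜 := ℂ) N = L :=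
    (Matrix.toEuclideanCLM (𝕜 := ℂ) (n := Fin q)).surjective L
  rw [StarAlgEquiv.symm_apply_apply, ContinuousLinearMap.det,
    Matrix.coe_toEuclideanCLM_eq_toEuclideanLin, Matrix.toEuclideanLin_eq_toLin_orthonormal,
    LinearMap.det_toLin]

section comp

variable [CompleteSpace H] [CompleteSpace H']

/-- a bounded affine intertwiner, and restriction to a subgroup -/
theorem map {r' : Rep M' H'} {b' : M' → H'} (h : IsMin D K M a r b S)
    (ha : HolV (D.atl G) univ a) (φ : M' → M) (hφ : ∀ m, (φ m : G) = m)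
    (T : H →L[ℂ] H') (hT : ∀ x, T (r.J x) = r'.J (T x)) (c : H') (hc : r'.J c = c)
    (hb : ∀ m x, r.J x = x → T (r.π (φ m) x + b (φ m)) + c = r'.π m (T x + c) + b' m) :
    IsMin D K M' a r' b' fun i v x I => T (S i v x I) :=
  congrS (gen h ha 1 (L := 1) (by simp) (aff_one a) φ (fun m => by simp [hφ]) T hT c hc hb)
    fun i v x _ => by simp

/-- restriction to a subgroup -/
theorem res (h : IsMin D K M a r b S) (ha : HolV (D.atl G) univ a) (hM : M' ≤ M) :
    IsMin D K M' a (r.comap (Subgroup.inclusion hM)) (fun m => b (Subgroup.inclusion hM m)) S :=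
  map h ha (Subgroup.inclusion hM) (fun _ => rfl) (ContinuousLinearMap.id ℂ H) (fun _ => rfl) 0
    (map_zero _) fun m x _ => by
      simp only [ContinuousLinearMap.id_apply, add_zero]
      rfl

/-- conjugation by `g` as a homomorphism -/
abbrev cN (M : Subgroup G) [M.Normal] (g : G) : M →* M := (MulAut.conjNormal g : M ≃* M)

theorem cN_coe [M.Normal] (g : G) (m : M) : (cN M g m : G) = g * m * g⁻¹ := rfl

/-- **naturality** under a deck transformation -/
theorem nat [M.Normal] (h : IsMin D K M a r b S) (ha' : HolV (D.atl G) univ a') (g : G)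
    {L : Mt q} (hL : L.det ≠ 0) {l : Cn q}
    (haL : ∀ e k, a (g • e) k = ∑ k', L k k' * a' e k' + l k) :
    IsMin D K M a' (r.comap (cN M g)) (fun m => b (cN M g m))
      fun i v x => (L.det)⁻¹ • S i (v * g⁻¹) x :=
  gen h ha' g hL haL (cN M g) (cN_coe g) (ContinuousLinearMap.id ℂ H) (fun _ => rfl) 0
    (map_zero _) fun m x _ => by
      simp only [ContinuousLinearMap.id_apply, add_zero]
      rfl

/-- the same with a continuous linear map -/
theorem natC [M.Normal] (h : IsMin D K M a r b S) (ha' : HolV (D.atl G) univ a') (g : G)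
    {L : Cn q →L[ℂ] Cn q} (hL : L.det ≠ 0) {l : Cn q} (haL : ∀ e, a (g • e) = L (a' e) + l) :
    IsMin D K M a' (r.comap (cN M g)) (fun m => b (cN M g m))
      fun i v x => (L.det)⁻¹ • S i (v * g⁻¹) x := by
  have := nat h ha' g (by rwa [det_clm]) (aff_clm haL)
  rwa [det_clm] at this

/-- the same for a translation -/
theorem natT [M.Normal] (h : IsMin D K M a r b S) (ha' : HolV (D.atl G) univ a') (g : G)
    {l : Cn q} (haL : ∀ e, a (g • e) = a' e + l) :
    IsMin D K M a' (r.comap (cN M g)) (fun m => b (cN M g m)) fun i v x => S i (v * g⁻¹) x :=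
  congrS (nat h ha' g (L := 1) (by simp) (aff_tr haL)) fun i v x _ => by simp

/-- real multiples -/
theorem smul (h : IsMin D K M a r b S) (ha : HolV (D.atl G) univ a) (t : ℝ) :
    IsMin D K M a r (fun m => (t : ℂ) • b m) fun i v x => (t : ℂ) • S i v x :=
  map h ha id (fun _ => rfl) ((t : ℂ) • ContinuousLinearMap.id ℂ H)
    (fun x => (r.J_real_smul t x).symm) 0 (map_zero _) fun m x _ => by
      simp only [_root_.smul_apply, ContinuousLinearMap.id_apply, add_zero, id,
        smul_add, map_smul]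

theorem neg (h : IsMin D K M a r b S) (ha : HolV (D.atl G) univ a) :
    IsMin D K M a r (fun m => -b m) fun i v x => -S i v x := by
  simpa using smul h ha (-1)

/-- change of the cocycle by a coboundary -/
theorem shift (h : IsMin D K M a r b S) (ha : HolV (D.atl G) univ a) (c : H) (hc : r.J c = c)
    (hb : ∀ m, b' m = b m + c - r.π m c) : IsMin D K M a r b' S :=
  map h ha id (fun _ => rfl) (ContinuousLinearMap.id ℂ H) (fun _ => rfl) c hc fun m x _ => by
    simp only [ContinuousLinearMap.id_apply, id, hb, map_add]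
    abel

end comp

/-- change of representation and cocycle -/
theorem congr {r' : Rep M H} (h : IsMin D K M a r b S) (hπ : ∀ m x, r'.π m x = r.π m x)
    (hJ : ∀ x, r'.J x = r.J x) (hb : ∀ m, b' m = b m) : IsMin D K M a r' b' S := by
  obtain ⟨f, hf, hl⟩ := h.lim
  exact ⟨h.hol, ⟨f, fun k => ⟨(hf k).sm, fun e => by rw [hJ, (hf k).real], fun m e => by
    rw [hπ, hb, (hf k).eqv]⟩, hl⟩, fun i v u hu hc hs hu' =>
      h.orth i v u hu hc hs fun z => by rw [← hJ, hu']⟩

/-- an action with a fixed point -/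
theorem cob (D : MonD A G) (K : Kah A) (a : D.cov G → Cn q) (r : Rep M H) (c : H) (hc : r.J c = c)
    (hb : ∀ m, r.π m c + b m = c) : IsMin D K M a r b 0 := by
  refine ⟨fun i v I => differentiableOn_const (c := (0 : H)), ⟨fun _ _ => c, fun _ =>
    ⟨fun _ => contDiffOn_const, fun _ => hc, fun m _ => (hb m).symm⟩, fun i v Kc _ _ I => ?_⟩,
    fun i v u _ _ _ _ => ?_⟩
  · have : ∀ z, Sl (rd D a i v) (rd D (fun _ => c) i v) z = 0 := fun z => Sl_const c
    simp [this]
  · simp [p2_zero_right]

theorem zero (D : MonD A G) (K : Kah A) (a : D.cov G → Cn q) (r : Rep M H) :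
    IsMin D K M a r 0 0 := cob D K a r 0 (map_zero _) fun m => by simp

theorem add (h : IsMin D K M a r b S) (h' : IsMin D K M a r b' S') (ha : HolV (D.atl G) univ a) :
    IsMin D K M a r (fun m => b m + b' m) fun i v x => S i v x + S' i v x := by
  obtain ⟨f, hf, hl⟩ := h.lim
  obtain ⟨f', hf', hl'⟩ := h'.lim
  refine ⟨fun i v I => (h.hol i v I).add (h'.hol i v I), ⟨fun k e => f k e + f' k e, fun k =>
    ⟨fun p => ((hf k).sm p).add ((hf' k).sm p), fun e => by
      rw [map_add, (hf k).real, (hf' k).real], fun m e => ?_⟩, fun i v Kc hK hc I => ?_⟩,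
    fun i v u hu hc hs hJ => ?_⟩
  · beta_reduce
    rw [(hf k).eqv, (hf' k).eqv, map_add]
    abel
  · have c1 := fun k => ((((contOn_Sl (A.e i).open_target (hol_rd ha i v) (sm_rd (hf k).sm i v)
      I).sub (h.hol i v I).continuousOn).mono hK).norm.pow 2).const_smul (2 : ℝ)
    have c2 := fun k => ((((contOn_Sl (A.e i).open_target (hol_rd ha i v) (sm_rd (hf' k).sm i v)
      I).sub (h'.hol i v I).continuousOn).mono hK).norm.pow 2).const_smul (2 : ℝ)
    have h0 := ((hl i v Kc hK hc I).const_mul 2).add ((hl' i v Kc hK hc I).const_mul 2)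
    rw [mul_zero, add_zero] at h0
    refine tend_le hc (fun k => (c1 k).add (c2 k)) (fun k z hz => ?_) (h0.congr fun k => ?_)
    · have h1 : Sl (rd D a i v) (rd D (fun e => f k e + f' k e) i v) z =
          Sl (rd D a i v) (rd D (f k) i v) z + Sl (rd D a i v) (rd D (f' k) i v) z :=
        Sl_add (diff_rd (hf k).sm i v (hK hz)) (diff_rd (hf' k).sm i v (hK hz))
      simp only [h1, Pi.add_apply, Pi.smul_apply, Pi.pow_apply, Pi.sub_apply, smul_eq_mul]
      rw [add_sub_add_comm]
      refine (pow_le_pow_left₀ (norm_nonneg _) (norm_add_le _ _) 2).trans ?_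
      rw [← mul_add]
      exact add_sq_le
    · rw [← integral_const_mul, ← integral_const_mul]
      exact (integral_add ((c1 k).integrableOn_compact hc) ((c2 k).integrableOn_compact hc)).symm
  · have h1 := integral_add
      (int_test ha K i v hu hc hs fun I => (h.hol i v I).continuousOn)
      (int_test ha K i v hu hc hs fun I => (h'.hol i v I).continuousOn)
    rw [h.orth i v u hu hc hs hJ, h'.orth i v u hu hc hs hJ, add_zero] at h1
    rw [← h1]
    congr 1
    funext z
    simp only [p2, ip_add_right, mul_add, Complex.add_re]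

theorem sub [CompleteSpace H] (h : IsMin D K M a r b S) (h' : IsMin D K M a r b' S')
    (ha : HolV (D.atl G) univ a) :
    IsMin D K M a r (fun m => b m - b' m) fun i v x => S i v x - S' i v x := by
  simpa only [sub_eq_add_neg] using add h (neg h' ha) ha

theorem sum {ι : Type*} (s : Finset ι) {b : ι → M → H} {S : ι → A.ι → G → X → FI n → H}
    (h : ∀ j ∈ s, IsMin D K M a r (b j) (S j)) (ha : HolV (D.atl G) univ a) :
    IsMin D K M a r (fun m => ∑ j ∈ s, b j m) fun i v x => ∑ j ∈ s, S j i v x := by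
  classical
  induction s using Finset.induction_on with
  | empty => exact zero D K a r
  | insert j s hj ih =>
    simp only [Finset.sum_insert hj]
    exact add (h j (Finset.mem_insert_self j s))
      (ih fun j' hj' => h j' (Finset.mem_insert_of_mem hj')) ha

/-! ### consequences of uniqueness -/

/-- the uniqueness clause of `FamStmt` -/
def Uq (D : MonD A G) (K : Kah A) (M : Subgroup G) (a : D.cov G → Cn q) (H : Type*)
    [NormedAddCommGroup H] [InnerProductSpace ℂ H] : Prop :=
  ∀ (r : Rep M H) (b : M → H) (S S' : A.ι → G → X → FI n → H), IsMin D K M a r b S →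
    IsMin D K M a r b S' → ∀ i v, ∀ x ∈ (A.e i).source, S i v x = S' i v x

/-- an action with a fixed point has trivial minimal form -/
theorem eq_zero (hU : Uq D K M a H) (h : IsMin D K M a r b S) (c : H) (hc : r.J c = c)
    (hb : ∀ m, r.π m c + b m = c) (i : A.ι) (v : G) {x : X} (hx : x ∈ (A.e i).source) :
    S i v x = 0 := hU r b S 0 h (cob D K a r c hc hb) i v x hx

variable [CompleteSpace H] [M.Normal]

/-- equivariance under an element which normalises the action -/
theorem fixT (hU : Uq D K M a H) (h : IsMin D K M a r b S) (ha : HolV (D.atl G) univ a) (g : G)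
    {L : Mt q} (hL : L.det ≠ 0) {l : Cn q}
    (haL : ∀ e k, a (g • e) k = ∑ k', L k k' * a e k' + l k)
    (T : H →L[ℂ] H) (hT : ∀ x, T (r.J x) = r.J (T x)) (c : H) (hc : r.J c = c)
    (hb : ∀ m x, r.J x = x → T (r.π m x + b m) + c = r.π (cN M g m) (T x + c) + b (cN M g m))
    (i : A.ι) (v : G) {x : X} (hx : x ∈ (A.e i).source) (I : FI n) :
    S i (v * g⁻¹) x I = L.det • T (S i v x I) := by
  have h1 := congrFun (hU _ _ _ _ (nat h ha g hL haL)
    (map (r' := r.comap (cN M g)) h ha id (fun _ => rfl) T hT c hc hb) i v x hx) I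
  rw [← h1, Pi.smul_apply, smul_inv_smul₀ hL]

theorem fixC (hU : Uq D K M a H) (h : IsMin D K M a r b S) (ha : HolV (D.atl G) univ a) (g : G)
    {L : Cn q →L[ℂ] Cn q} (hL : L.det ≠ 0) {l : Cn q} (haL : ∀ e, a (g • e) = L (a e) + l)
    (T : H →L[ℂ] H) (hT : ∀ x, T (r.J x) = r.J (T x)) (c : H) (hc : r.J c = c)
    (hb : ∀ m x, r.J x = x → T (r.π m x + b m) + c = r.π (cN M g m) (T x + c) + b (cN M g m))
    (i : A.ι) (v : G) {x : X} (hx : x ∈ (A.e i).source) (I : FI n) :
    S i (v * g⁻¹) x I = L.det • T (S i v x I) := by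
  rw [fixT hU h ha g (by rwa [det_clm]) (aff_clm haL) T hT c hc hb i v hx, det_clm]

/-- invariance under an element which commutes with the action -/
theorem fix (hU : Uq D K M a H) (h : IsMin D K M a r b S) (ha : HolV (D.atl G) univ a) (g : G)
    {l : Cn q} (haL : ∀ e, a (g • e) = a e + l)
    (hb : ∀ m x, r.π (cN M g m) x + b (cN M g m) = r.π m x + b m)
    (i : A.ι) (v : G) {x : X} (hx : x ∈ (A.e i).source) : S i (v * g⁻¹) x = S i v x := by
  funext I
  rw [fixT hU h ha g (L := 1) (by simp) (aff_tr haL) (ContinuousLinearMap.id ℂ H) (fun _ => rfl) 0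
    (map_zero _) (fun m x _ => by simp only [ContinuousLinearMap.id_apply, add_zero, hb])
    i v hx]
  simp

theorem α_cN {α : Act M H} {N : Subgroup G} [hN : N.Normal]
    (hα : ∀ m : M, (m : G) ∈ N → ∀ x, α.α m x = x) {g : G} (hg : g ∈ N) (m : M) (x : H) :
    α.α (cN M g m) x = α.α m x := by
  have h1 : cN M g m = (cN M g m * m⁻¹) * m := (inv_mul_cancel_right _ _).symm
  rw [h1, α.α_mul, hα]
  have h2 : ((cN M g m * m⁻¹ : M) : G) = g * (m * g⁻¹ * (m : G)⁻¹) := by
    rw [Subgroup.coe_mul, cN_coe, Subgroup.coe_inv]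
    group
  rw [h2]
  exact N.mul_mem hg (hN.conj_mem _ (N.inv_mem hg) _)

/-- the field `S_N` of `Rel.Min` -/
theorem fixN (hU : Uq D K M a H) {α : Act M H} (h : IsMin D K M a α.toRep α.b S)
    (ha : HolV (D.atl G) univ a) {N : Subgroup G} [N.Normal]
    (hα : ∀ m : M, (m : G) ∈ N → ∀ x, α.α m x = x) (hN : ∀ g ∈ N, ∃ l, ∀ e, a (g • e) = a e + l) :
    ∀ g ∈ N, ∀ i v, ∀ x ∈ (A.e i).source, S i (v * g⁻¹) x = S i v x := fun g hg i v _ hx =>
  let ⟨_, hl⟩ := hN g hg
  fix hU h ha g hl (α_cN hα hg) i v hx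

end

end Crest.Agent.X261.Fam60
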